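import Vale.Agent.P088.R2.H238.C.Pt
import Vale.Agent.P088.R2.H657.W.Fam

/-!
# P088, stage 3, region I: pairs
-/

open Set Filter
open scoped ContDiff Topology

noncomputable section

namespace Vale.Agent.P088.R2.H238.C

open Vale.Agent.P088.LR Vale.Agent.P088.HY Vale.Agent.P088.HY.T3 Vale.Agent.P088.HY.T4
open Vale.Agent.P088.R2.H31.EP
open Vale.Agent.P088.R2.H475
open Vale.Agent.P088.R2.H464.Cu (mid dif rq bf)
open Vale.Agent.P088.R2.H657.W (TR cG cG_nn)

variable {n : ℕ} {q : Cst} {d : Pk n}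

/-- The thresholds which depend on `n`, and the radius `rc`. -/
structure Te (n : ℕ) (q : Cst) : Prop where
  ε0 : 0 < q.ε
  ε1 : q.ε ≤ 1
  nε : n * q.ε ≤ 1 / 2
  gε : n * (cG n 12 * q.ε) ≤ 1 / 100
  rc : 1 ≤ q.r₁ * Real.exp (-1) / 2

theorem EvC.te (n : ℕ) : EvC (Te n) := by
  have h2 := EvC.pos
  have key : ∀ c : ℝ, 0 ≤ c → ∀ b : ℝ, 0 < b → ∀ᶠ t in sml, c * t ≤ b := by
    intro c hc b hb
    filter_upwards [sml_pos, sml_le (a := b / (c + 1)) (by positivity)] with t h1 h2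
    rw [le_div_iff₀ (by positivity)] at h2
    nlinarith
  have h3 := EvC.at_ε (fun _ t => t ≤ 1) (fun _ => sml_le one_pos)
  have h4 := EvC.at_ε (fun _ t => (n : ℝ) * t ≤ 1 / 2)
    (fun _ => key n (Nat.cast_nonneg n) (1 / 2) (by norm_num))
  have h5 := EvC.at_ε (fun _ t => (n : ℝ) * (cG n 12 * t) ≤ 1 / 100) (fun _ => by
    have := key (n * cG n 12) (mul_nonneg (Nat.cast_nonneg n) (cG_nn n 12)) (1 / 100) (by norm_num)
    filter_upwards [this] with t ht
    linarith)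
  have h6 := EvC.at_M₀ (fun q t => 0 < q.c' → 1 ≤ q.c' * t / 2 * Real.exp (-1) / 2) (fun q => by
    by_cases h : 0 < q.c'
    · have : Tendsto (fun t : ℝ => q.c' * t / 2 * Real.exp (-1) / 2) atTop atTop := by
        have h7 := (tendsto_id (α := ℝ)).const_mul_atTop
          (show 0 < q.c' / 2 * Real.exp (-1) / 2 by positivity)
        refine h7.congr fun t => ?_
        simp only [id_eq]; ring
      filter_upwards [this.eventually_ge_atTop 1] with t ht _
      exact ht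
    · exact Eventually.of_forall fun _ h' => absurd h' h)
  refine ((h2.and h3).and ((h4.and h5).and h6)).mono ?_
  rintro q ⟨⟨⟨-, ⟨-, -, c3, -, -, -, -⟩, -, -, e3, -⟩, d3⟩, ⟨d4, d5⟩, d6⟩
  exact ⟨by tauto, d3, d4, d5, d6 c3⟩

/-! ## The metric -/

theorem gi_TR (h : PkOk q d) (T : Th q) (E : Te n q) : TR 12 (cG n 12 * q.ε) q.R (gi d.s₁) :=
  (H657.W.Rg.t1 h.rg).inv T.R0 E.ε1 E.nε

theorem r2_eq (z : VV n) :
    d.r2 z = ∑ i, ∑ j, gi d.s₁ (mid z) i j * dif z i * dif z j := by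
  unfold Pk.r2 H31.EP.r2 rq bf
  ring

theorem r2_bd (h : PkOk q d) (T : Th q) (E : Te n q) (z : VV n) :
    |d.r2 z - HY.sq (z.1 - z.2)| ≤ n * (cG n 12 * q.ε) * HY.sq (z.1 - z.2) := by
  have hg := gi_TR h T E
  have hd : dif z = z.1 - z.2 := rfl
  have h1 : HY.sq (z.1 - z.2) =
      ∑ i, ∑ j, (1 : Matrix (Fin n) (Fin n) ℝ) i j * dif z i * dif z j := by
    unfold HY.sq
    refine Finset.sum_congr rfl fun i _ => ?_
    simp only [Matrix.one_apply, ite_mul, one_mul, zero_mul, Finset.sum_ite_eq,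
      Finset.mem_univ, if_true]
    rw [hd]
    ring
  rw [r2_eq, h1, ← Finset.sum_sub_distrib]
  have h2 : ∀ i, (∑ j, gi d.s₁ (mid z) i j * dif z i * dif z j) -
      ∑ j, (1 : Matrix (Fin n) (Fin n) ℝ) i j * dif z i * dif z j =
      ∑ j, (gi d.s₁ (mid z) i j - (1 : Matrix (Fin n) (Fin n) ℝ) i j) * dif z i * dif z j := by
    intro i
    rw [← Finset.sum_sub_distrib]
    exact Finset.sum_congr rfl fun j _ => by ring
  simp only [h2]
  have h3 : ∀ i j, |gi d.s₁ (mid z) i j - (1 : Matrix (Fin n) (Fin n) ℝ) i j| ≤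
      cG n 12 * q.ε := by
    intro i j
    have := hg.cl i j 0 (Nat.zero_le _) (mid z)
    simpa using this
  have hc : 0 ≤ cG n 12 * q.ε := mul_nonneg (cG_nn n 12) E.ε0.le
  calc |∑ i, ∑ j, (gi d.s₁ (mid z) i j - (1 : Matrix (Fin n) (Fin n) ℝ) i j) * dif z i * dif z j|
      ≤ ∑ i, ∑ j, cG n 12 * q.ε * (|dif z i| * |dif z j|) := by
        refine (Finset.abs_sum_le_sum_abs _ _).trans (Finset.sum_le_sum fun i _ => ?_)
        refine (Finset.abs_sum_le_sum_abs _ _).trans (Finset.sum_le_sum fun j _ => ?_)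
        rw [abs_mul, abs_mul, mul_assoc]
        exact mul_le_mul_of_nonneg_right (h3 i j) (by positivity)
    _ = cG n 12 * q.ε * (∑ i, |dif z i|) ^ 2 := by
        rw [_root_.sq, Finset.sum_mul_sum, Finset.mul_sum]
        refine Finset.sum_congr rfl fun i _ => ?_
        rw [Finset.mul_sum]
    _ ≤ cG n 12 * q.ε * (n * ∑ i, |dif z i| ^ 2) := by
        refine mul_le_mul_of_nonneg_left ?_ hc
        have := sq_sum_le_card_mul_sum_sq (s := Finset.univ) (f := fun i => |dif z i|)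
        simpa using this
    _ = _ := by
        rw [← h1]
        simp only [sq_abs]
        have : HY.sq (z.1 - z.2) = ∑ i, dif z i ^ 2 := rfl
        rw [this]
        ring

theorem r2_ge (h : PkOk q d) (T : Th q) (E : Te n q) (z : VV n) :
    99 / 100 * HY.sq (z.1 - z.2) ≤ d.r2 z := by
  have h1 := (abs_le.1 (r2_bd h T E z)).1
  have h2 := mul_le_mul_of_nonneg_right E.gε (sq0 (z.1 - z.2))
  linarith

theorem r2_le (h : PkOk q d) (T : Th q) (E : Te n q) (z : VV n) :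
    d.r2 z ≤ 101 / 100 * HY.sq (z.1 - z.2) := by
  have h1 := (abs_le.1 (r2_bd h T E z)).2
  have h2 := mul_le_mul_of_nonneg_right E.gε (sq0 (z.1 - z.2))
  linarith

/-! ## The levels of near pairs -/

theorem room_aux (h : PkOk q d) (T : Th q) {x y : V n} {A s : ℝ} (hs : d.l x + d.l y = s)
    (hw : HY.sq (ww n q y) ≤ HY.sq (ww n q x)) (hA : √(HY.sq (x - y)) ≤ A)
    (hAR : A ≤ q.R / 100) (h0 : -q.R - 1 / 4 ≤ s) (h1 : s ≤ 2 * d.l₀ q + 46 / 10 * q.R + 1 / 4) :
    th1 q.σ ≤ HY.sq (ww n q x) ∧ th1 q.σ ≤ HY.sq (ww n q y) ∧ 0 ≤ d.l x - d.l y ∧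
      d.l x - d.l y ≤ 1001 / 1000 * A := by
  have hσ := T.σ0
  have hσ1 := T.σ1
  have hR := T.R0
  have hR1 := T.R1
  have hl0 := l0_nn h T
  have hl1 := l0_le h T
  have hA0 : 0 ≤ A := (Real.sqrt_nonneg _).trans hA
  have hle : d.l y ≤ d.l x := by
    rw [h.lev.lit, levG_le_iff T.σ0 T.σ1 T.R0]
    exact hw
  have hx : -(q.R / 2) - 1 / 8 ≤ d.l x := by linarith
  have tx : th1 q.σ ≤ HY.sq (ww n q x) := th_of_level h T (by linarith)
  have e : ∀ t : ℝ, 2 * q.σ / q.R * (t * q.R) = 2 * t * q.σ := fun t => by field_simp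
  have hc : 0 ≤ 2 * q.σ / q.R := by positivity
  have hx2 := sq_of_th h T tx
  have hx3 : 1 - 11 / 10 * q.σ ≤ HY.sq (ww n q x) := by
    rw [hx2]
    have h2 := mul_le_mul_of_nonneg_left (show -(55 / 100) * q.R ≤ d.l x - d.l₀ q by
      linarith) hc
    rw [e] at h2
    linarith
  obtain ⟨S, hS⟩ : ∃ S, S = √(HY.sq (ww n q x)) := ⟨_, rfl⟩
  have hS0 : 0 ≤ S := by rw [hS]; exact Real.sqrt_nonneg _
  have hS2 : S ^ 2 = HY.sq (ww n q x) := by rw [hS]; exact Real.sq_sqrt (sq0 _)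
  have hy2 : S - q.σ / 100 ≤ √(HY.sq (ww n q y)) := by
    have h2 := en_wR_le T.σ0 T.R0 x y (n := n) (R := q.R)
    have h3 : q.σ / q.R * √(HY.sq (x - y)) ≤ q.σ / 100 := by
      calc q.σ / q.R * √(HY.sq (x - y)) ≤ q.σ / q.R * (q.R / 100) := by
            gcongr; linarith
        _ = q.σ / 100 := by field_simp
    have h4 : √(HY.sq (wR n q.σ q.R x)) = S := hS.symm
    have h5 : √(HY.sq (wR n q.σ q.R y)) = √(HY.sq (ww n q y)) := rfl
    rw [h4, h5] at h2
    linarith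
  have hS3 : 1 - 6 / 10 * q.σ ≤ S := by
    refine le_of_sq_le_sq ?_ hS0
    rw [hS2]
    nlinarith
  have ty : th1 q.σ ≤ HY.sq (ww n q y) := by
    have h6 : (1 - 23 / 10 * q.σ) ^ 2 ≤ √(HY.sq (ww n q y)) ^ 2 :=
      pow_le_pow_left₀ (by linarith) (by linarith) 2
    rwa [Real.sq_sqrt (sq0 _)] at h6
  have hd : d.l x - d.l y ≤ S * A := by
    rw [l_sub h T tx ty]
    have h1 := abs_dot_le (fun i => ww n q x i + ww n q y i) (fun i => x i - y i)
    have h2 : (fun i => ww n q x i + ww n q y i) = ww n q x + ww n q y := rfl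
    have h3 : (fun i => x i - y i) = x - y := rfl
    rw [h2, h3] at h1
    have h4 := en_add (ww n q x) (ww n q y)
    have h5 : √(HY.sq (ww n q y)) ≤ S := by rw [hS]; exact Real.sqrt_le_sqrt hw
    rw [← hS] at h4
    have h6 : √(HY.sq (ww n q x + ww n q y)) * √(HY.sq (x - y)) ≤ (2 * S) * A :=
      mul_le_mul (by linarith) hA (Real.sqrt_nonneg _) (by linarith)
    have h7 := le_abs_self (∑ i, (ww n q x i + ww n q y i) * (x i - y i))
    linarith
  have hS4 : S ≤ 1001 / 1000 := by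
    by_contra hc2
    have hc3 := not_le.1 hc2
    have h8 : 2 * d.l x ≤ 2 * d.l₀ q + 46 / 10 * q.R + 1 / 4 + S * (q.R / 100) := by
      have := mul_le_mul_of_nonneg_left hAR hS0
      linarith
    have h9 : S ^ 2 ≤ 1 + q.σ * (462 / 100 + S / 100) := by
      rw [hS2, hx2]
      have h10 := mul_le_mul_of_nonneg_left (show d.l x - d.l₀ q ≤
        (231 / 100 + S / 200) * q.R by nlinarith) hc
      rw [e] at h10
      linarith
    have h11 : q.σ * (462 / 100 + S / 100) ≤ 1 / 5000 * (462 / 100 + S / 100) :=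
      mul_le_mul_of_nonneg_right hσ1 (by positivity)
    nlinarith
  refine ⟨tx, ty, by linarith, hd.trans (mul_le_mul_of_nonneg_right hS4 hA0)⟩

end Vale.Agent.P088.R2.H238.C
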