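import Vale.Agent.P088.R2.H238.C.Geo
import Vale.Agent.P088.R2.H205.C.SpecW

/-!
# P088, stage 3, region I: pairs, the weight
-/

open Set Filter
open scoped ContDiff Topology

noncomputable section

namespace Vale.Agent.P088.R2.H238.C

open Vale.Agent.P088.LR Vale.Agent.P088.HY Vale.Agent.P088.HY.T3 Vale.Agent.P088.HY.T4
open Vale.Agent.P088.R2.H31.EP
open Vale.Agent.P088.R2.H475
open Vale.Agent.P088.R2.H464.Cu (mid dif rq bf)
open Vale.Agent.P088.R2.H205.CP (OI)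

variable {n : ℕ} {q : Cst} {d : Pk n}

/-- Both points and the midpoint are in the explicit region, `r < 1`. -/
def Gz (q : Cst) (d : Pk n) : Set (VV n) :=
  {z | z.1 ∈ Gp q d ∧ z.2 ∈ Gp q d ∧ mid z ∈ Gp q d ∧ d.r2 z < 1}

/-- First pass: low levels (`μc = μ`). -/
def Gz1 (q : Cst) (d : Pk n) : Set (VV n) := Gz q d ∩ {z | d.l (mid z) < d.l₀ q + q.R / 2}

/-- Reverse pass: high levels (`μc = 0`, flat metrics). -/
def Gz2 (q : Cst) (d : Pk n) : Set (VV n) :=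
  Gz q d ∩ {z | d.l₀ q + 105 / 100 * q.R < d.l z.1 ∧ d.l₀ q + 105 / 100 * q.R < d.l z.2 ∧
    d.l₀ q + 105 / 100 * q.R < d.l (mid z)}

/-! ## Continuity -/

theorem mid_cont : Continuous fun z : VV n => mid z := by
  unfold mid
  fun_prop

theorem gi_sm (h : PkOk q d) (T : Th q) (E : Te n q) (i j : Fin n) :
    ContDiff ℝ ∞ fun x => gi d.s₁ x i j := (gi_TR h T E).sm i j

theorem r2_sm (h : PkOk q d) (T : Th q) (E : Te n q) : ContDiff ℝ ∞ d.r2 := by
  have e : d.r2 = fun z => ∑ i, ∑ j, gi d.s₁ (mid z) i j * dif z i * dif z j :=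
    funext fun z => r2_eq z
  rw [e]
  have hd : ∀ i, ContDiff ℝ ∞ fun z : VV n => dif z i := fun i =>
    ((contDiff_apply ℝ ℝ i).comp contDiff_fst).sub ((contDiff_apply ℝ ℝ i).comp contDiff_snd)
  exact ContDiff.sum fun i _ => ContDiff.sum fun j _ =>
    (((gi_sm h T E i j).comp H464.Cu.contDiff_mid).mul (hd i)).mul (hd j)

theorem isOpen_Gz (h : PkOk q d) (T : Th q) (E : Te n q) : IsOpen (Gz q d) :=
  ((isOpen_Gp h).preimage continuous_fst).inter (((isOpen_Gp h).preimage continuous_snd).inter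
    (((isOpen_Gp h).preimage mid_cont).inter
      (isOpen_lt (r2_sm h T E).continuous continuous_const)))

theorem isOpen_Gz1 (h : PkOk q d) (T : Th q) (E : Te n q) : IsOpen (Gz1 q d) :=
  (isOpen_Gz h T E).inter (isOpen_lt ((l_sm h).continuous.comp mid_cont) continuous_const)

theorem isOpen_Gz2 (h : PkOk q d) (T : Th q) (E : Te n q) : IsOpen (Gz2 q d) :=
  (isOpen_Gz h T E).inter ((isOpen_lt continuous_const ((l_sm h).continuous.comp
    continuous_fst)).inter ((isOpen_lt continuous_const ((l_sm h).continuous.comp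
      continuous_snd)).inter (isOpen_lt continuous_const ((l_sm h).continuous.comp mid_cont))))

/-! ## The weight on `Gz` -/

theorem u_Gz (h : PkOk q d) {z : VV n} (hz : z ∈ Gz q d) :
    d.u q z = d.l z.1 + d.l z.2 + 2 * d.μc q (d.l (mid z)) := by
  have h1 : d.χ (H31.EP.r2 (gi d.s₁) z) = 1 := h.χ1 _ hz.2.2.2.le
  show H31.EP.uu (d.F q) d.l (gi d.s₁) z = _
  unfold H31.EP.uu
  have h2 : (d.F q).χ (H31.EP.r2 (gi d.s₁) z) = 1 := h1
  rw [h2, one_mul]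
  rfl

theorem u_Gz' (h : PkOk q d) (T : Th q) {z : VV n} (hz : z ∈ Gz q d) :
    d.u q z = 2 * d.l (mid z) + 2 * d.μc q (d.l (mid z)) +
      q.σ / (4 * q.R) * HY.sq (z.1 - z.2) := by
  rw [u_Gz h hz, l_mid h T (Gp_th h T hz.1) (Gp_th h T hz.2.1) (Gp_th h T hz.2.2.1)]
  have : (1 / 2 : ℝ) • (z.1 + z.2) = mid z := rfl
  rw [this]
  ring

theorem W_Gz (h : PkOk q d) (T : Th q) (E : Te n q) {z : VV n} (hz : z ∈ Gz q d) :
    d.W q z = d.Φ (d.u q z) + Real.exp (d.u q z) * prS q.e₁ (d.r2 z) := by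
  have h1 := Gp_P h T hz.1
  have h2 := Gp_P h T hz.2.1
  have h3 := Gp_Th h T hz.1
  have h4 := Gp_Th h T hz.2.1
  show WT (d.F q) d.Θ d.P d.l (gi d.s₁) z = _
  unfold WT
  rw [h1, h2, h3, h4, add_zero, add_zero]
  have h5 : st (d.F q) (d.u q z) (d.r2 z) = Real.exp (d.u q z) * prS q.e₁ (d.r2 z) := by
    refine st_in ?_
    have h6 : (1 : ℝ) ≤ (d.F q).rc := E.rc
    nlinarith [hz.2.2.2]
  show d.Φ (d.u q z) + 1 * st (d.F q) (d.u q z) (d.r2 z) = _
  rw [h5, one_mul]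

theorem W_Gz_ev (h : PkOk q d) (T : Th q) (E : Te n q) {z : VV n} (hz : z ∈ Gz q d) :
    d.W q =ᶠ[𝓝 z] fun z => d.Φ (d.u q z) + Real.exp (d.u q z) * prS q.e₁ (d.r2 z) := by
  filter_upwards [(isOpen_Gz h T E).mem_nhds hz] with w hw
  exact W_Gz h T E hw

/-- First pass: `μc = μ`. -/
theorem mu_Gz1 (T : Th q) {z : VV n} (hz : z ∈ Gz1 q d) :
    d.μc q (d.l (mid z)) = d.μ (d.l (mid z)) := Pk.μc_eq d q T.R0 hz.2.le

/-- Reverse pass: `μc = 0`. -/
theorem mu_Gz2 (T : Th q) {z : VV n} (hz : z ∈ Gz2 q d) : d.μc q (d.l (mid z)) = 0 := by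
  refine Pk.μc_zero d q T.R0 ?_
  have := hz.2.2.2
  have := T.R0
  linarith

/-- Points of high level are in the flat part. -/
theorem flat_of_level (hn : 1 ≤ n) (h : PkOk q d) (T : Th q) {x : V n}
    (hx : d.l₀ q + 105 / 100 * q.R ≤ d.l x) : d.s₁ x = 1 ∧ d.s₂ x = 1 := by
  refine h.rg.of x fun hm => ?_
  have h1 := far_of_level hn h T (by linarith : d.l₀ q + 21 / 20 * q.R ≤ d.l x)
  have h2 : √(HY.sq x) < 2 * q.R := (mem_Eb0 (by linarith [T.R0])).1 hm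
  linarith

theorem gi_flat (hn : 1 ≤ n) (h : PkOk q d) (T : Th q) {x : V n}
    (hx : d.l₀ q + 105 / 100 * q.R ≤ d.l x) : gi d.s₁ x = 1 := by
  unfold gi
  rw [(flat_of_level hn h T hx).1, inv_one]

/-- Reverse pass: `r² = |x - y|²`. -/
theorem r2_Gz2 (hn : 1 ≤ n) (h : PkOk q d) (T : Th q) {z : VV n} (hz : z ∈ Gz2 q d) :
    d.r2 z = HY.sq (z.1 - z.2) := by
  rw [r2_eq, gi_flat hn h T hz.2.2.2.le]
  unfold HY.sq
  refine Finset.sum_congr rfl fun i _ => ?_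
  simp only [Matrix.one_apply, ite_mul, one_mul, zero_mul, Finset.sum_ite_eq,
    Finset.mem_univ, if_true]
  have : dif z i = (z.1 - z.2) i := rfl
  rw [this]
  ring

/-! ## The levels of the pairs -/

theorem muc_le (h : PkOk q d) (s : ℝ) : |d.μc q s| ≤ 1 / 8 := (Pk.μc_abs d q s).trans (h.ph.μb s)

theorem u_abs (h : PkOk q d) (z : VV n) : |d.u q z - (d.l z.1 + d.l z.2)| ≤ 1 / 4 := by
  have e : d.u q z - (d.l z.1 + d.l z.2) =
      2 * (d.χ (d.r2 z) * d.μc q (d.l (mid z))) := by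
    show H31.EP.uu (d.F q) d.l (gi d.s₁) z - (d.l z.1 + d.l z.2) = _
    unfold H31.EP.uu
    have : (d.F q).χ (H31.EP.r2 (gi d.s₁) z) * (d.F q).μ (d.l (mid z)) =
      d.χ (d.r2 z) * d.μc q (d.l (mid z)) := rfl
    rw [this]
    ring
  rw [e, abs_mul, abs_mul]
  have h1 := h.χb (d.r2 z)
  have h2 : |d.χ (d.r2 z)| ≤ 1 := by rw [abs_of_nonneg h1.1]; exact h1.2
  have h3 := muc_le h (d.l (mid z))
  have h4 : |d.χ (d.r2 z)| * |d.μc q (d.l (mid z))| ≤ 1 * (1 / 8) :=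
    mul_le_mul h2 h3 (abs_nonneg _) zero_le_one
  rw [abs_of_pos (by norm_num : (0 : ℝ) < 2)]
  linarith

/-- The levels of a pair at distance `≤ A ≤ R / 100`. -/
structure Rm (q : Cst) (d : Pk n) (A : ℝ) (z : VV n) : Prop where
  tx : th1 q.σ ≤ HY.sq (ww n q z.1)
  ty : th1 q.σ ≤ HY.sq (ww n q z.2)
  tp : th1 q.σ ≤ HY.sq (ww n q (mid z))
  x : |d.l z.1 - d.u q z / 2| ≤ 1 / 8 + 51 / 100 * A
  y : |d.l z.2 - d.u q z / 2| ≤ 1 / 8 + 51 / 100 * A
  p : |d.l (mid z) - d.u q z / 2| ≤ 1 / 8 + 51 / 100 * A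

theorem en_comm (x y : V n) : √(HY.sq (x - y)) = √(HY.sq (y - x)) := by
  rw [show x - y = (-1 : ℝ) • (y - x) by simp, en_smul]
  simp

theorem room (h : PkOk q d) (T : Th q) {z : VV n} {A : ℝ} (hA : √(HY.sq (z.1 - z.2)) ≤ A)
    (hAR : A ≤ q.R / 100) (h0 : -q.R ≤ d.u q z) (h1 : d.u q z ≤ 2 * d.l₀ q + 46 / 10 * q.R) :
    Rm q d A z := by
  have hu := abs_le.1 (u_abs h z)
  have hR := T.R0
  have hR1 := T.R1
  have hσ := T.σ0
  have hσ1 := T.σ1
  have hl1 := l0_le h T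
  have hl0 := l0_nn h T
  have hA0 : 0 ≤ A := (Real.sqrt_nonneg _).trans hA
  have key : th1 q.σ ≤ HY.sq (ww n q z.1) ∧ th1 q.σ ≤ HY.sq (ww n q z.2) ∧
      |d.l z.1 - d.l z.2| ≤ 1001 / 1000 * A := by
    rcases le_total (HY.sq (ww n q z.2)) (HY.sq (ww n q z.1)) with hw | hw
    · obtain ⟨a1, a2, a3, a4⟩ := room_aux h T rfl hw hA hAR (by linarith) (by linarith)
      exact ⟨a1, a2, by rw [abs_of_nonneg a3]; exact a4⟩
    · rw [en_comm] at hA
      obtain ⟨a1, a2, a3, a4⟩ := room_aux h T (rfl : d.l z.2 + d.l z.1 = _) hw hA hAR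
        (by linarith) (by linarith)
      exact ⟨a2, a1, by rw [abs_sub_comm, abs_of_nonneg a3]; exact a4⟩
  obtain ⟨tx, ty, hd⟩ := key
  have hd' := abs_le.1 hd
  have hx : |d.l z.1 - d.u q z / 2| ≤ 1 / 8 + 51 / 100 * A := by
    rw [abs_le]; constructor <;> linarith
  have hy : |d.l z.2 - d.u q z / 2| ≤ 1 / 8 + 51 / 100 * A := by
    rw [abs_le]; constructor <;> linarith
  have hx' := abs_le.1 hx
  have gx : z.1 ∈ Gp q d := ⟨by linarith, by linarith⟩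
  have tp : th1 q.σ ≤ HY.sq (ww n q (mid z)) := by
    refine near_th h T gx ?_
    have e : mid z - z.1 = (1 / 2 : ℝ) • (z.2 - z.1) := by
      unfold mid
      ext i
      simp only [Pi.sub_apply, Pi.smul_apply, Pi.add_apply, smul_eq_mul]
      ring
    rw [e, en_smul, abs_of_pos (by norm_num : (0 : ℝ) < 1 / 2), ← en_comm]
    linarith
  refine ⟨tx, ty, tp, hx, hy, ?_⟩
  have hm := l_mid h T tx ty tp
  have e : d.l ((1 / 2 : ℝ) • (z.1 + z.2)) = d.l (mid z) := rfl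
  rw [e] at hm
  have hq : HY.sq (z.1 - z.2) ≤ A ^ 2 := by
    rw [← Real.sq_sqrt (sq0 (z.1 - z.2))]
    exact pow_le_pow_left₀ (Real.sqrt_nonneg _) hA 2
  have hq2 : q.σ / (4 * q.R) * HY.sq (z.1 - z.2) ≤ A / 1000 := by
    have h5 : A ^ 2 ≤ A * (q.R / 100) := by nlinarith
    calc q.σ / (4 * q.R) * HY.sq (z.1 - z.2) ≤ q.σ / (4 * q.R) * (A * (q.R / 100)) :=
          mul_le_mul_of_nonneg_left (hq.trans h5) (by positivity)
      _ = q.σ * A / 400 := by field_simp; ring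
      _ ≤ A / 1000 := by nlinarith
  have hq3 : 0 ≤ q.σ / (4 * q.R) * HY.sq (z.1 - z.2) := mul_nonneg (by positivity) (sq0 _)
  rw [abs_le]
  constructor <;> linarith

end Vale.Agent.P088.R2.H238.C
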