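import Vale.Agent.P088.R2.H238.C.Par

/-!
# P088, stage 3, region I: the points of `OI` and their neighbourhoods
-/

open Set Filter
open scoped ContDiff Topology

noncomputable section

namespace Vale.Agent.P088.R2.H238.C

open Vale.Agent.P088.LR Vale.Agent.P088.HY Vale.Agent.P088.HY.T3 Vale.Agent.P088.HY.T4
open Vale.Agent.P088.R2.H31.EP
open Vale.Agent.P088.R2.H475
open Vale.Agent.P088.R2.H464.Cu (mid dif rq bf)
open Vale.Agent.P088.R2.H205.CP (OI)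

variable {n : ℕ} {q : Cst} {d : Pk n}

/-- The facts about a point of region I. -/
structure LI (q : Cst) (d : Pk n) (z : VV n) : Prop where
  nu : NuI q d (d.u q z)
  δ : √(HY.sq (z.1 - z.2)) ≤ 3 * q.c₀
  x : |d.l z.1 - d.u q z / 2| ≤ 1 / 7
  y : |d.l z.2 - d.u q z / 2| ≤ 1 / 7
  p : |d.l (mid z) - d.u q z / 2| ≤ 1 / 7
  gz : z ∈ Gz q d
  pass : (d.u q z ≤ U₁ q ∧ z ∈ Gz1 q d) ∨ (12 / 10 * d.uth q ≤ d.u q z ∧ z ∈ Gz2 q d)

theorem LI_of (h : PkOk q d) (T : Th q) (E : Te n q) {z : VV n} (h1 : d.r2 z ≤ (2 * q.c₀) ^ 2)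
    (h2 : d.N q z ≤ q.aC * d.E q z) (h3 : d.E q z ≤ 4 * d.N q z ^ (13 / 5 : ℝ))
    (h4 : d.u q z ≤ d.utb q) : LI q d z := by
  have hnu : NuI q d (d.u q z) := nuI h T h2 h3 h4
  have hc0 := T.c0
  have hc1 := T.c1
  have hR := T.R1
  have hl0 := l0_nn h T
  have hl1 := l0_le h T
  have hut := hnu.ut
  have hu0 := hnu.u0
  have hth : d.uth q = 2 * d.l₀ q + 22 / 10 * q.R := rfl
  have hδ : √(HY.sq (z.1 - z.2)) ≤ 3 * q.c₀ := by
    refine en_le_of_sq (by linarith) ?_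
    have := r2_ge h T E z
    nlinarith
  have hrm := room h T hδ (by linarith) (by linarith) (by linarith)
  have hx : |d.l z.1 - d.u q z / 2| ≤ 1 / 7 := hrm.x.trans (by linarith)
  have hy : |d.l z.2 - d.u q z / 2| ≤ 1 / 7 := hrm.y.trans (by linarith)
  have hp : |d.l (mid z) - d.u q z / 2| ≤ 1 / 7 := hrm.p.trans (by linarith)
  have hx' := abs_le.1 hx
  have hy' := abs_le.1 hy
  have hp' := abs_le.1 hp
  have gz : z ∈ Gz q d := ⟨⟨by linarith, by linarith⟩, ⟨by linarith, by linarith⟩,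
    ⟨by linarith, by linarith⟩, by nlinarith⟩
  refine ⟨hnu, hδ, hx, hy, hp, gz, ?_⟩
  rcases pass h T h2 h3 h4 with hq | hq
  · left
    refine ⟨hq.1, gz, ?_⟩
    have h5 : d.u q z ≤ U₁ q := hq.1
    have := T.rU
    show d.l (mid z) < d.l₀ q + q.R / 2
    linarith
  · right
    have h5 : 12 / 10 * d.uth q ≤ d.u q z := hq.1
    refine ⟨h5, gz, ?_, ?_, ?_⟩ <;> linarith

/-- **The points of region I.** -/
theorem OI_LI (h : PkOk q d) (T : Th q) (E : Te n q) {z : VV n} (hz : z ∈ OI q d) :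
    LI q d z := LI_of h T E hz.1 hz.2.2.1 hz.2.2.2.1 hz.2.2.2.2

/-! ## Neighbourhoods -/

theorem near_l (h : PkOk q d) (T : Th q) {x y : V n} (hx : x ∈ Gp q d)
    (hxy : √(HY.sq (y - x)) ≤ q.R / 10) : |d.l y - d.l x| ≤ 101 / 1000 * q.R := by
  have := T.R0
  refine (l_lip h T hx (by linarith)).trans ?_
  linarith

theorem mid_sub (z z' : VV n) : mid z' - mid z =
    (1 / 2 : ℝ) • (z'.1 - z.1) + (1 / 2 : ℝ) • (z'.2 - z.2) := by
  unfold mid
  ext i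
  simp only [Pi.sub_apply, Pi.smul_apply, Pi.add_apply, smul_eq_mul]
  ring

theorem en_mid (z z' : VV n) {a : ℝ} (h1 : √(HY.sq (z'.1 - z.1)) ≤ a)
    (h2 : √(HY.sq (z'.2 - z.2)) ≤ a) : √(HY.sq (mid z' - mid z)) ≤ a := by
  rw [mid_sub]
  have h3 := en_add ((1 / 2 : ℝ) • (z'.1 - z.1)) ((1 / 2 : ℝ) • (z'.2 - z.2))
  rw [en_smul, en_smul, abs_of_pos (by norm_num : (0 : ℝ) < 1 / 2)] at h3
  linarith

/-- **Neighbours of a point of region I**, at distance `≤ R / 10`. -/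
theorem LI.near (h : PkOk q d) (T : Th q) {z z' : VV n} (L : LI q d z)
    (h1 : √(HY.sq (z'.1 - z.1)) ≤ q.R / 10) (h2 : √(HY.sq (z'.2 - z.2)) ≤ q.R / 10)
    (h3 : d.r2 z' < 1) :
    (d.u q z ≤ U₁ q ∧ z' ∈ Gz1 q d) ∨ (12 / 10 * d.uth q ≤ d.u q z ∧ z' ∈ Gz2 q d) := by
  have hR := T.R1
  have hl0 := l0_nn h T
  have hl1 := l0_le h T
  have hut := L.nu.ut
  have hu0 := L.nu.u0
  have hth : d.uth q = 2 * d.l₀ q + 22 / 10 * q.R := rfl
  have ax := abs_le.1 (near_l h T L.gz.1 h1)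
  have ay := abs_le.1 (near_l h T L.gz.2.1 h2)
  have ap := abs_le.1 (near_l h T L.gz.2.2.1 (en_mid z z' h1 h2))
  have hx' := abs_le.1 L.x
  have hy' := abs_le.1 L.y
  have hp' := abs_le.1 L.p
  have gz : z' ∈ Gz q d := ⟨⟨by linarith, by linarith⟩, ⟨by linarith, by linarith⟩,
    ⟨by linarith, by linarith⟩, h3⟩
  rcases L.pass with hq | hq
  · left
    refine ⟨hq.1, gz, ?_⟩
    have h5 : d.u q z ≤ U₁ q := hq.1
    have := T.rU
    show d.l (mid z') < d.l₀ q + q.R / 2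
    linarith
  · right
    have h5 : 12 / 10 * d.uth q ≤ d.u q z := hq.1
    refine ⟨h5, gz, ?_, ?_, ?_⟩ <;> linarith

/-- `μ` is `1/8`-Lipschitz. -/
theorem mu_lip (h : PkOk q d) (s t : ℝ) : |d.μ s - d.μ t| ≤ 1 / 8 * |s - t| := by
  have hd : ∀ u, HasDerivAt d.μ (deriv d.μ u) u := fun u =>
    ((h.ph.isμ.sm.differentiable (by simp)) u).hasDerivAt
  have hb : ∀ u ∈ (univ : Set ℝ), ‖deriv d.μ u‖ ≤ 1 / 8 := by
    intro u _
    rw [Real.norm_eq_abs, abs_le]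
    have h1 := h.ph.isμ.d1 u
    have h2 := h.ph.isμ.d2 u
    have h3 := h.ph.b0
    constructor <;> linarith
  have := convex_univ.norm_image_sub_le_of_norm_deriv_le
    (fun u _ => (hd u).differentiableAt) hb (mem_univ t) (mem_univ s)
  simpa [Real.norm_eq_abs] using this

theorem sqr_le (h : PkOk q d) (T : Th q) (E : Te n q) {z : VV n} (hz : z ∈ Gz q d) :
    HY.sq (z.1 - z.2) ≤ 102 / 100 := by
  have h1 := r2_ge h T E z
  have h2 := hz.2.2.2
  linarith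

/-- The difference of `u` at two pairs of the same pass. -/
theorem u_lip (h : PkOk q d) (T : Th q) (E : Te n q) {z z' : VV n}
    (hz : (z ∈ Gz1 q d ∧ z' ∈ Gz1 q d) ∨ (z ∈ Gz2 q d ∧ z' ∈ Gz2 q d))
    (hp : √(HY.sq (mid z' - mid z)) ≤ q.R / 2) :
    |d.u q z' - d.u q z| ≤ 23 / 10 * √(HY.sq (mid z' - mid z)) + 1 / q.R := by
  have hR := T.R0
  have hσ := T.σ0
  have hσ1 := T.σ1
  have gz : z ∈ Gz q d := by rcases hz with hz | hz; exacts [hz.1.1, hz.1.1]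
  have gz' : z' ∈ Gz q d := by rcases hz with hz | hz; exacts [hz.2.1, hz.2.1]
  have hl := l_lip h T gz.2.2.1 hp
  have hm : |d.μc q (d.l (mid z')) - d.μc q (d.l (mid z))| ≤
      1 / 8 * |d.l (mid z') - d.l (mid z)| := by
    rcases hz with hz | hz
    · rw [mu_Gz1 T hz.1, mu_Gz1 T hz.2]
      exact mu_lip h _ _
    · rw [mu_Gz2 T hz.1, mu_Gz2 T hz.2]
      simp only [sub_self, abs_zero]
      positivity
  have hq1 := sqr_le h T E gz
  have hq2 := sqr_le h T E gz'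
  have hq3 := sq0 (z.1 - z.2)
  have hq4 := sq0 (z'.1 - z'.2)
  have hq5 : |q.σ / (4 * q.R) * (HY.sq (z'.1 - z'.2) - HY.sq (z.1 - z.2))| ≤ 1 / q.R := by
    rw [abs_mul, abs_of_pos (by positivity)]
    have h5 : |HY.sq (z'.1 - z'.2) - HY.sq (z.1 - z.2)| ≤ 2 := by
      rw [abs_le]; constructor <;> linarith
    calc q.σ / (4 * q.R) * |HY.sq (z'.1 - z'.2) - HY.sq (z.1 - z.2)| ≤ q.σ / (4 * q.R) * 2 :=
          mul_le_mul_of_nonneg_left h5 (by positivity)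
      _ = q.σ / 2 * (1 / q.R) := by field_simp; ring
      _ ≤ 1 * (1 / q.R) := by gcongr; linarith
      _ = 1 / q.R := one_mul _
  rw [u_Gz' h T gz, u_Gz' h T gz']
  have e : 2 * d.l (mid z') + 2 * d.μc q (d.l (mid z')) + q.σ / (4 * q.R) * HY.sq (z'.1 - z'.2) -
      (2 * d.l (mid z) + 2 * d.μc q (d.l (mid z)) + q.σ / (4 * q.R) * HY.sq (z.1 - z.2)) =
      2 * (d.l (mid z') - d.l (mid z)) + 2 * (d.μc q (d.l (mid z')) - d.μc q (d.l (mid z))) +
      q.σ / (4 * q.R) * (HY.sq (z'.1 - z'.2) - HY.sq (z.1 - z.2)) := by ring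
  rw [e]
  refine (abs_add_three _ _ _).trans ?_
  rw [abs_mul, abs_mul, abs_of_pos (by norm_num : (0 : ℝ) < 2)]
  have h6 := Real.sqrt_nonneg (HY.sq (mid z' - mid z))
  linarith

/-- All thresholds of region I. -/
theorem EvC.loc (n : ℕ) : EvC fun q => Th q ∧ Te n q := EvC.thr.and (EvC.te n)

/-- **LOC of region I**, in the form of the rows. -/
theorem loc (n : ℕ) : EvC fun q => Th q ∧ Te n q ∧ ∀ d : Pk n, PkOk q d →
    ∀ z ∈ OI q d, LI q d z :=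
  (EvC.loc n).mono fun _ hq => ⟨hq.1, hq.2, fun _ h _ hz => OI_LI h hq.1 hq.2 hz⟩

end Vale.Agent.P088.R2.H238.C
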