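import Vale.Agent.P088.R2.H31.EP.PackL

/-!
# P088, stage 3, region I: the numbers `E`, `N`, `K` (both passes)
-/

open Set Filter
open scoped ContDiff Topology

noncomputable section

namespace Vale.Agent.P088.R2.H238.C

open Vale.Agent.P088.R2.H31.EP
open Vale.Agent.P088.R2.H313.Ph Vale.Agent.P088.R2.H313.Tp

/-- The bound of `Φ'` up to `uth`. -/
def N₁ (q : Cst) : ℝ := (1 + q.ph.CT) * (q.ph.Cb * q.M₀)

/-- The bound of `u` on the first pass. -/
def U₁ (q : Cst) : ℝ := Real.log (4 * N₁ q ^ (13 / 5 : ℝ))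

/-- The thresholds used for region I. -/
structure Th (q : Cst) : Prop where
  nm1 : 1 ≤ q.nm
  aC0 : 0 < q.aC
  aC1 : q.aC ≤ 1 / 100
  c0 : 0 < q.c₀
  c1 : q.c₀ ≤ 1 / 100
  ν0 : 0 < q.ν₁
  ν1 : 40 * q.ν₁ ≤ 9 / 10 * q.aC
  σ0 : 0 < q.σ
  σ1 : q.σ ≤ 1 / 5000
  M1 : 1 ≤ q.M₀
  mA : 4 ≤ q.M₀ ^ (6 / 100 : ℝ)
  mB : 10 / 9 ≤ q.M₀ ^ (1 / 10 : ℝ)
  η0 : 0 < q.η
  η1 : q.η ≤ 1 / 1000
  Ck1 : 1 ≤ q.Ck
  R1 : 1000 ≤ q.R
  CT0 : 0 < q.ph.CT
  Cb0 : 0 < q.ph.Cb
  L2 : 2 ≤ q.L
  rU : U₁ q ≤ q.R / 100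

theorem EvC.thr : EvC Th := by
  have h1 := EvC.good
  have h2 := EvC.pos
  have h3 := EvC.at_aC (fun _ t => t ≤ 1 / 100) (fun _ => sml_le (by norm_num))
  have h4 := EvC.at_c₀ (fun _ t => t ≤ 1 / 100) (fun _ => sml_le (by norm_num))
  have h5 := EvC.at_σ (fun _ t => t ≤ 1 / 5000) (fun _ => sml_le (by norm_num))
  have h6 := EvC.at_η (fun _ t => t ≤ 1 / 1000) (fun _ => sml_le (by norm_num))
  have h7 := EvC.at_M₀ (fun _ t => 4 ≤ t ^ (6 / 100 : ℝ) ∧ 10 / 9 ≤ t ^ (1 / 10 : ℝ)) (fun _ =>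
    ((tendsto_rpow_atTop (by norm_num : (0 : ℝ) < 6 / 100)).eventually_ge_atTop _).and
      ((tendsto_rpow_atTop (by norm_num : (0 : ℝ) < 1 / 10)).eventually_ge_atTop _))
  have h8 := EvC.at_R (fun q t => 1000 ≤ t ∧ U₁ q ≤ t / 100) (fun q =>
    (eventually_ge_atTop _).and ((tendsto_id.atTop_div_const (by norm_num)).eventually_ge_atTop _))
  have h9 := EvC.at_ν₁ (fun q t => 40 * t ≤ 9 / 10 * q.aC ∨ q.aC ≤ 0) (fun q => by
    by_cases h : q.aC ≤ 0
    · exact Eventually.of_forall fun _ => Or.inr h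
    · filter_upwards [sml_le (a := 9 / 400 * q.aC) (by linarith [not_le.1 h])] with t ht
      left; linarith)
  refine ((h1.and h2).and ((h3.and h4).and ((h5.and h6).and ((h7.and h8).and h9)))).mono ?_
  rintro q ⟨⟨⟨⟨a1, a2, a3, a4, a5⟩, a6⟩, ⟨b1, b2, b3, b4, b5, b6, b7, b8, b9, b10⟩,
    ⟨c1, c2, c3, c4, c5, c6, c7⟩, e1, e2⟩, ⟨d3, d4⟩, ⟨d5, d6⟩, ⟨⟨d7, d7'⟩, d8, d8'⟩, d9⟩
  exact
    { nm1 := b3, aC0 := b5, aC1 := d3, c0 := b6, c1 := d4, ν0 := b7
      ν1 := d9.resolve_right (not_le.2 b5)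
      σ0 := c2, σ1 := d5, M1 := e1, mA := d7, mB := d7'
      η0 := by tauto, η1 := d6, Ck1 := by tauto, R1 := d8, CT0 := a1.CT0, Cb0 := a1.Cb0
      L2 := a2, rU := d8' }

/-! ## The levels -/

section

variable {n : ℕ} {q : Cst} {d : Pk n}

theorem Th.R0 (T : Th q) : 0 < q.R := by linarith [T.R1]

theorem l0_nn (h : PkOk q d) (T : Th q) : 0 ≤ d.l₀ q := by
  have hR := T.R0
  have h1 : q.R ≤ d.kap := by
    refine le_trans ?_ h.kC
    calc q.R = q.R ^ (1 : ℝ) := (Real.rpow_one _).symm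
      _ ≤ q.R ^ q.Ck := Real.rpow_le_rpow_of_exponent_le (by linarith [T.R1]) T.Ck1
  have h2 : 0 ≤ Real.log (d.kap / q.R) := Real.log_nonneg (by rwa [le_div_iff₀ hR, one_mul])
  have h3 : 0 ≤ -(q.R * d.Gs) := by
    have := mul_nonneg hR.le (neg_nonneg.2 h.G0)
    linarith
  unfold Pk.l₀
  linarith

theorem l0_le (h : PkOk q d) (T : Th q) : d.l₀ q ≤ q.R / 500 := by
  have hR := T.R0
  have h1 : Real.log (d.kap / q.R) ≤ q.η * q.R := by
    have hk : 0 < d.kap := lt_of_lt_of_le one_pos h.k1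
    calc Real.log (d.kap / q.R) ≤ Real.log d.kap :=
          Real.log_le_log (by positivity) (div_le_self hk.le (by linarith [T.R1]))
      _ ≤ Real.log (Real.exp (q.η * q.R)) := Real.log_le_log hk h.kη
      _ = q.η * q.R := Real.log_exp _
  have h2 : q.R * (-d.Gs) ≤ q.R * q.η := mul_le_mul_of_nonneg_left (by linarith [h.G1]) hR.le
  have h3 := mul_le_mul_of_nonneg_right T.η1 hR.le
  unfold Pk.l₀
  linarith

theorem uth_ge (h : PkOk q d) (T : Th q) : 22 / 10 * q.R ≤ d.uth q := by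
  have := l0_nn h T
  unfold Pk.uth; linarith

theorem uth_le (h : PkOk q d) (T : Th q) : d.uth q ≤ 23 / 10 * q.R := by
  have := l0_le h T
  have := T.R0
  unfold Pk.uth; linarith

/-- Twice `uth` is below `uta`. -/
theorem uth_uta (h : PkOk q d) (T : Th q) : 2 * d.uth q + q.R / 20 ≤ d.uta q := by
  have := l0_le h T
  have := T.R0
  unfold Pk.uth Pk.uta; linarith

theorem uta_utb (T : Th q) : d.uta q + 1 ≤ d.utb q := by
  have := T.R1
  unfold Pk.utb Pk.uta; linarith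

/-! ## The slope -/

theorem Phi1_pos (h : PkOk q d) (T : Th q) (u : ℝ) : 0 < deriv d.Φ₁ u :=
  lt_of_lt_of_le (by linarith [T.M1]) (h.ph.isΦ.n1 u)

theorem N_ge (h : PkOk q d) (u : ℝ) : q.M₀ ≤ deriv d.Φ u := (h.ph.isΦ.n1 u).trans (h.top.l1 u)

theorem N_pos (h : PkOk q d) (T : Th q) (u : ℝ) : 0 < deriv d.Φ u :=
  lt_of_lt_of_le (by linarith [T.M1]) (N_ge h u)

theorem N1_pos (T : Th q) : 0 < N₁ q := by
  have := T.CT0
  have := T.Cb0
  have := T.M1
  unfold N₁; positivity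

theorem N_le (h : PkOk q d) (T : Th q) {u : ℝ} (hu : u ≤ d.uth q) : deriv d.Φ u ≤ N₁ q := by
  have h1 := h.top.c1 u hu
  have h2 : Real.exp (u - d.uth q) ≤ 1 := Real.exp_le_one_iff.2 (by linarith)
  have h3 := h.ph.isΦ.n2 u
  have h0 := Phi1_pos h T u
  have hCT := T.CT0
  calc deriv d.Φ u ≤ (1 + q.ph.CT * Real.exp (u - d.uth q)) * deriv d.Φ₁ u := h1
    _ ≤ (1 + q.ph.CT * 1) * deriv d.Φ₁ u := by gcongr
    _ ≤ (1 + q.ph.CT * 1) * (q.ph.Cb * q.M₀) := by gcongr
    _ = N₁ q := by unfold N₁; ring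

theorem dPhi_sm (h : PkOk q d) : ContDiff ℝ ∞ (deriv d.Φ) :=
  (contDiff_infty_iff_deriv.1 h.top.sm).2

theorem dPhi_hd (h : PkOk q d) (u : ℝ) : HasDerivAt (deriv d.Φ) (deriv (deriv d.Φ) u) u :=
  (((dPhi_sm h).differentiable (by simp)) u).hasDerivAt

/-- On `[uta, utb]` the slope is larger than `E`. -/
theorem N_top (h : PkOk q d) (T : Th q) {u : ℝ} (h1 : d.uta q ≤ u) (h2 : u ≤ d.utb q) :
    q.aC * Real.exp u < deriv d.Φ u := by
  obtain ⟨f, hf⟩ : ∃ f : ℝ → ℝ, f = fun u => deriv d.Φ u * Real.exp (-u) := ⟨_, rfl⟩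
  have hd : ∀ u, HasDerivAt f ((deriv (deriv d.Φ) u - deriv d.Φ u) * Real.exp (-u)) u := by
    intro u
    have := (dPhi_hd h u).mul ((hasDerivAt_neg u).exp)
    rw [hf]
    refine this.congr_deriv ?_
    ring
  have hm : MonotoneOn f (Icc (d.uta q) (d.utb q)) := by
    refine monotoneOn_of_deriv_nonneg (convex_Icc _ _)
      (fun v _ => (hd v).continuousAt.continuousWithinAt)
      (fun v _ => (hd v).differentiableAt.differentiableWithinAt) fun v hv => ?_
    have hv' := interior_subset hv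
    rw [(hd v).deriv]
    refine mul_nonneg ?_ (Real.exp_pos _).le
    have hN := N_pos h T v
    have hL := T.L2
    rcases le_total v (d.uta q + 1) with h3 | h3
    · have := (h.top.x2 v hv'.1 h3).1
      linarith
    · rw [h.top.x3 v h3 hv'.2]
      nlinarith
  have hk := hm ⟨le_rfl, by linarith [uta_utb (d := d) T]⟩ ⟨h1, h2⟩ h1
  have ht := uth_uta h T
  have hR := T.R1
  have hth := uth_ge h T
  have ha := h.top.y1 (d.uta q) (by linarith) le_rfl
  have hM := N_ge h (d.uth q)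
  have h4 : q.aC < f (d.uta q) := by
    rw [hf]
    simp only
    rw [ha, mul_assoc, ← Real.exp_add]
    have h5 : (1 : ℝ) ≤ Real.exp (2 * (d.uta q - d.uth q) + -d.uta q) :=
      Real.one_le_exp (by linarith)
    have h6 := T.aC1
    have h7 := T.M1
    calc q.aC < 1 * 1 := by linarith
      _ ≤ deriv d.Φ (d.uth q) * Real.exp (2 * (d.uta q - d.uth q) + -d.uta q) :=
          mul_le_mul (h7.trans hM) h5 zero_le_one (by linarith)
  have h8 := lt_of_lt_of_le h4 hk
  rw [hf] at h8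
  have h9 := mul_lt_mul_of_pos_right h8 (Real.exp_pos u)
  simp only at h9
  rwa [mul_assoc, ← Real.exp_add, neg_add_cancel, Real.exp_zero, mul_one] at h9

/-- **The two passes.** -/
theorem pass (h : PkOk q d) (T : Th q) {u : ℝ} (h1 : deriv d.Φ u ≤ q.aC * Real.exp u)
    (h2 : Real.exp u ≤ 4 * deriv d.Φ u ^ (13 / 5 : ℝ)) (h3 : u ≤ d.utb q) :
    (u ≤ U₁ q ∧ u ≤ d.uth q / 2) ∨ (12 / 10 * d.uth q ≤ u ∧ u ≤ 2 * d.uth q) := by
  have hN1 := N1_pos T
  have hR := T.R1
  have hth := uth_ge h T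
  rcases le_total u (d.uth q) with h4 | h4
  · left
    have h5 := N_le h T h4
    have h6 : Real.exp u ≤ 4 * N₁ q ^ (13 / 5 : ℝ) := by
      refine h2.trans (mul_le_mul_of_nonneg_left ?_ (by norm_num))
      exact Real.rpow_le_rpow (N_pos h T u).le h5 (by norm_num)
    have h7 : u ≤ U₁ q := by
      rw [← Real.log_exp u]
      exact Real.log_le_log (Real.exp_pos _) h6
    exact ⟨h7, by have := T.rU; linarith⟩
  · right
    have h5 : u ≤ d.uta q := by
      by_contra hc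
      exact absurd h1 (not_le.2 (N_top h T (not_le.1 hc).le h3))
    have h6 := h.top.y1 u h4 h5
    have hNt := N_ge h (d.uth q)
    have hNt' := N_le h T (le_refl (d.uth q))
    have hNp := N_pos h T (d.uth q)
    constructor
    · have h7 : Real.exp u ≤ 4 * N₁ q ^ (13 / 5 : ℝ) * Real.exp (26 / 5 * (u - d.uth q)) := by
        refine h2.trans ?_
        have e : Real.exp (2 * (u - d.uth q)) ^ (13 / 5 : ℝ) =
            Real.exp (26 / 5 * (u - d.uth q)) := by
          rw [← Real.exp_mul]; congr 1; ring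
        rw [h6, Real.mul_rpow hNp.le (Real.exp_pos _).le, e, ← mul_assoc]
        gcongr
      have h8 := Real.log_le_log (Real.exp_pos _) h7
      rw [Real.log_exp, Real.log_mul (by positivity) (Real.exp_pos _).ne', Real.log_exp] at h8
      have h9 : Real.log (4 * N₁ q ^ (13 / 5 : ℝ)) = U₁ q := rfl
      rw [h9] at h8
      have := T.rU
      linarith
    · rw [h6] at h1
      have h7 : Real.exp (2 * (u - d.uth q)) ≤ Real.exp u := by
        have a1 := T.aC1
        have a2 := T.M1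
        have a3 : 1 * Real.exp (2 * (u - d.uth q)) ≤
            deriv d.Φ (d.uth q) * Real.exp (2 * (u - d.uth q)) :=
          mul_le_mul_of_nonneg_right (a2.trans hNt) (Real.exp_pos _).le
        have a4 : q.aC * Real.exp u ≤ 1 * Real.exp u :=
          mul_le_mul_of_nonneg_right (by linarith) (Real.exp_pos _).le
        linarith
      have h8 := Real.exp_le_exp.1 h7
      linarith

/-! ## Comparison of values -/

/-- A positive function with `|f'| ≤ C f` on `(-∞, a]`. -/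
theorem exp_comp {f f' : ℝ → ℝ} {C a : ℝ} (hC : 0 ≤ C) (hd : ∀ u, HasDerivAt f (f' u) u)
    (hb : ∀ u ≤ a, |f' u| ≤ C * f u) {u v : ℝ} (hu : u ≤ a) (hv : v ≤ a) :
    f u ≤ f v * Real.exp (C * |u - v|) := by
  have h1 : ∀ w, HasDerivAt (fun w => f w * Real.exp (-(C * w)))
      ((f' w - C * f w) * Real.exp (-(C * w))) w := by
    intro w
    have := (hd w).mul (((hasDerivAt_id w).const_mul C).neg.exp)
    refine this.congr_deriv ?_
    simp only [id_eq, Pi.neg_apply]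
    ring
  have h2 : ∀ w, HasDerivAt (fun w => f w * Real.exp (C * w))
      ((f' w + C * f w) * Real.exp (C * w)) w := by
    intro w
    have := (hd w).mul (((hasDerivAt_id w).const_mul C).exp)
    refine this.congr_deriv ?_
    simp only [id_eq]
    ring
  have ha : AntitoneOn (fun w => f w * Real.exp (-(C * w))) (Iic a) := by
    refine antitoneOn_of_deriv_nonpos (convex_Iic _)
      (fun v _ => (h1 v).continuousAt.continuousWithinAt)
      (fun v _ => (h1 v).differentiableAt.differentiableWithinAt) fun w hw => ?_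
    have hw' := interior_subset hw
    rw [(h1 w).deriv]
    have := (abs_le.1 (hb w hw')).2
    exact mul_nonpos_of_nonpos_of_nonneg (by linarith) (Real.exp_pos _).le
  have hm : MonotoneOn (fun w => f w * Real.exp (C * w)) (Iic a) := by
    refine monotoneOn_of_deriv_nonneg (convex_Iic _)
      (fun v _ => (h2 v).continuousAt.continuousWithinAt)
      (fun v _ => (h2 v).differentiableAt.differentiableWithinAt) fun w hw => ?_
    have hw' := interior_subset hw
    rw [(h2 w).deriv]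
    have := (abs_le.1 (hb w hw')).1
    exact mul_nonneg (by linarith) (Real.exp_pos _).le
  rcases le_total u v with h | h
  · have h3 := hm hu hv h
    simp only at h3
    have h4 : f u * Real.exp (C * u) * Real.exp (-(C * u)) ≤
        f v * Real.exp (C * v) * Real.exp (-(C * u)) :=
      mul_le_mul_of_nonneg_right h3 (Real.exp_pos _).le
    rw [mul_assoc, ← Real.exp_add, add_neg_cancel, Real.exp_zero, mul_one, mul_assoc,
      ← Real.exp_add] at h4
    have e : C * v + -(C * u) = C * |u - v| := by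
      rw [abs_of_nonpos (by linarith)]; ring
    rwa [e] at h4
  · have h3 := ha hv hu h
    simp only at h3
    have h4 : f u * Real.exp (-(C * u)) * Real.exp (C * u) ≤
        f v * Real.exp (-(C * v)) * Real.exp (C * u) :=
      mul_le_mul_of_nonneg_right h3 (Real.exp_pos _).le
    rw [mul_assoc, ← Real.exp_add, neg_add_cancel, Real.exp_zero, mul_one, mul_assoc,
      ← Real.exp_add] at h4
    have e : -(C * v) + C * u = C * |u - v| := by
      rw [abs_of_nonneg (by linarith)]; ring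
    rwa [e] at h4

theorem K_pos (h : PkOk q d) (u : ℝ) : 0 < deriv (deriv d.Φ) u := h.top.k0 u

theorem ddPhi_hd (h : PkOk q d) (u : ℝ) :
    HasDerivAt (deriv (deriv d.Φ)) (iteratedDeriv 3 d.Φ u) u := by
  have h1 : ContDiff ℝ ∞ (deriv (deriv d.Φ)) := (contDiff_infty_iff_deriv.1 (dPhi_sm h)).2
  have h2 := ((h1.differentiable (by simp)) u).hasDerivAt
  have h3 : iteratedDeriv 3 d.Φ u = deriv (deriv (deriv d.Φ)) u := by
    rw [iteratedDeriv_succ, iteratedDeriv_succ, iteratedDeriv_one]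
  rwa [← h3] at h2

/-- `K` at two levels below `uta`. -/
theorem K_comp (h : PkOk q d) (hC : 0 ≤ q.ph.Ct 1) {u v : ℝ} (hu : u ≤ d.uta q)
    (hv : v ≤ d.uta q) :
    deriv (deriv d.Φ) u ≤ deriv (deriv d.Φ) v * Real.exp (q.ph.Ct 1 * |u - v|) :=
  exp_comp hC (ddPhi_hd h) (fun w hw => h.top.kd 1 w hw) hu hv

/-- `N` at two levels below `uta`. -/
theorem N_comp (h : PkOk q d) (T : Th q) {u v : ℝ} (hu : u ≤ d.uta q) (hv : v ≤ d.uta q) :
    deriv d.Φ u ≤ deriv d.Φ v * Real.exp (41 / 20 * |u - v|) := by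
  refine exp_comp (by norm_num) (dPhi_hd h) (fun w hw => ?_) hu hv
  rw [abs_of_pos (K_pos h w)]
  have := h.top.k1 w hw
  linarith

/-! ## The numbers on region I -/

/-- `N`, `K`, `E` on region I. -/
structure NuI (q : Cst) (d : Pk n) (u : ℝ) : Prop where
  E1 : q.M₀ ≤ q.aC * Real.exp u
  N1 : q.M₀ ≤ deriv d.Φ u
  Kl : deriv d.Φ u ^ (9 / 10 : ℝ) ≤ deriv (deriv d.Φ) u
  Kn : deriv (deriv d.Φ) u ≤ 41 / 20 * deriv d.Φ u
  KE : deriv (deriv d.Φ) u ≤ 3 * q.aC * Real.exp u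
  NE : deriv d.Φ u ^ 2 ≤ 2 * q.aC * (Real.exp u * deriv (deriv d.Φ) u)
  u0 : 0 ≤ u
  ut : u ≤ 2 * d.uth q

theorem nuI (h : PkOk q d) (T : Th q) {u : ℝ} (h1 : deriv d.Φ u ≤ q.aC * Real.exp u)
    (h2 : Real.exp u ≤ 4 * deriv d.Φ u ^ (13 / 5 : ℝ)) (h3 : u ≤ d.utb q) : NuI q d u := by
  have hN := N_ge h u
  have hM := T.M1
  have ha := T.aC0
  have ha1 := T.aC1
  have hNp := N_pos h T u
  have hN1 : 1 ≤ deriv d.Φ u := hM.trans hN
  have hE := Real.exp_pos u
  have hp := pass h T h1 h2 h3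
  have hth := uth_ge h T
  have hta := uth_uta h T
  have hR := T.R1
  have hut : u ≤ 2 * d.uth q := by
    rcases hp with hp | hp
    · linarith [hp.2]
    · exact hp.2
  have hu0 : 0 ≤ u := by
    by_contra hc
    have : Real.exp u ≤ 1 := Real.exp_le_one_iff.2 (not_le.1 hc).le
    nlinarith
  have hKn : deriv (deriv d.Φ) u ≤ 41 / 20 * deriv d.Φ u := by
    have := h.top.k1 u (by linarith)
    linarith
  have hB : 10 / 9 * deriv d.Φ u ^ (9 / 10 : ℝ) ≤ deriv d.Φ u := by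
    have e : deriv d.Φ u = deriv d.Φ u ^ (1 / 10 : ℝ) * deriv d.Φ u ^ (9 / 10 : ℝ) := by
      rw [← Real.rpow_add hNp]; norm_num
    have h4 : 10 / 9 ≤ deriv d.Φ u ^ (1 / 10 : ℝ) :=
      T.mB.trans (Real.rpow_le_rpow (by linarith) hN (by norm_num))
    calc 10 / 9 * deriv d.Φ u ^ (9 / 10 : ℝ) ≤
          deriv d.Φ u ^ (1 / 10 : ℝ) * deriv d.Φ u ^ (9 / 10 : ℝ) := by gcongr
      _ = deriv d.Φ u := e.symm
  have key : deriv d.Φ u ^ (9 / 10 : ℝ) ≤ deriv (deriv d.Φ) u ∧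
      deriv d.Φ u ^ 2 ≤ 2 * q.aC * (Real.exp u * deriv (deriv d.Φ) u) := by
    rcases hp with hp | hp
    · have hN' := h.top.e1 u hp.2
      have hK' := h.top.e2 u hp.2
      have hpos9 : 0 ≤ deriv d.Φ u ^ (9 / 10 : ℝ) := by positivity
      rcases le_total (deriv d.Φ₁ u) (q.ν₁ * Real.exp u) with hc | hc
      · have h5 : Real.exp u ≤ 1 * deriv d.Φ₁ u ^ (133 / 50 : ℝ) := by
          rw [one_mul, ← hN']
          refine h2.trans ?_
          have e : deriv d.Φ u ^ (133 / 50 : ℝ) =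
              deriv d.Φ u ^ (6 / 100 : ℝ) * deriv d.Φ u ^ (13 / 5 : ℝ) := by
            rw [← Real.rpow_add hNp]; norm_num
          rw [e]
          have h4 : 4 ≤ deriv d.Φ u ^ (6 / 100 : ℝ) :=
            T.mA.trans (Real.rpow_le_rpow (by linarith) hN (by norm_num))
          gcongr
        have h6 := h.ph.isΦ.p2 u hc h5
        rw [← hN', ← hK'] at h6
        have h7 : 0 ≤ 1 / q.aC * deriv d.Φ u ^ 2 / Real.exp u := by positivity
        refine ⟨by linarith, ?_⟩
        have h8 : 1 / q.aC * deriv d.Φ u ^ 2 / Real.exp u ≤ deriv (deriv d.Φ) u := by linarith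
        rw [div_le_iff₀ hE, one_div, inv_mul_le_iff₀ ha] at h8
        have h9 : 0 ≤ q.aC * (deriv (deriv d.Φ) u * Real.exp u) := by
          have := K_pos h u
          positivity
        linarith
      · have h5 : deriv d.Φ₁ u ≤ q.nm * Real.exp u := by
          rw [← hN']
          refine h1.trans (mul_le_mul_of_nonneg_right ?_ hE.le)
          linarith [T.nm1]
        have h6 := h.ph.isΦ.p1 u hc h5
        rw [← hN', ← hK'] at h6
        refine ⟨by linarith, ?_⟩
        rw [h6]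
        have h7 := mul_le_mul_of_nonneg_right h1 hNp.le
        have h8 : 0 ≤ q.aC * Real.exp u * deriv d.Φ u := by positivity
        nlinarith
    · have h6 := h.top.x1 u (by linarith [hp.1]) (by linarith [hp.2])
      refine ⟨by linarith [hB, Real.rpow_nonneg hNp.le (9 / 10 : ℝ)], ?_⟩
      rw [h6]
      have h7 := mul_le_mul_of_nonneg_right h1 hNp.le
      have h8 : 0 ≤ q.aC * Real.exp u * deriv d.Φ u := by positivity
      nlinarith
  have hE1 : q.M₀ ≤ q.aC * Real.exp u := hN.trans h1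
  exact ⟨hE1, hN, key.1, hKn, by nlinarith, key.2, hu0, hut⟩

end

end Vale.Agent.P088.R2.H238.C
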