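import Vale.Agent.P088.R2.H238.C.Nu

/-!
# P088, stage 3, region I: points where the level function is explicit
-/

open Set Filter
open scoped ContDiff Topology

noncomputable section

namespace Vale.Agent.P088.R2.H238.C

open Vale.Agent.P088.LR Vale.Agent.P088.HY Vale.Agent.P088.HY.T3 Vale.Agent.P088.HY.T4
open Vale.Agent.P088.R2.H31.EP
open Vale.Agent.P088.R2.H475

variable {n : ℕ} {q : Cst} {d : Pk n}

/-- The points with `-R < l < l₀ + 5 R / 2`: there `l = lv`, `P = id`, `Θ = 0`. -/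
def Gp (q : Cst) (d : Pk n) : Set (V n) := {x | -q.R < d.l x ∧ d.l x < d.l₀ q + 5 / 2 * q.R}

/-- The gradient of the level, `w = e₀ + σ (x / R - e₀)`. -/
def ww (n : ℕ) (q : Cst) (x : V n) : V n := wR n q.σ q.R x

theorem ww_apply (x : V n) (i : Fin n) :
    ww n q x i = e0 n i + q.σ * (q.R⁻¹ * x i - e0 n i) := rfl

theorem ww_sub (x y : V n) : ww n q x - ww n q y = (q.σ / q.R) • (x - y) := wR_sub x y

/-! ## The literal form -/

theorem lit_of_th (h : PkOk q d) (T : Th q) {x : V n} (hx : th1 q.σ ≤ HY.sq (ww n q x)) :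
    d.l x = d.l₀ q + q.R / (2 * q.σ) * (HY.sq (ww n q x) - 1) := by
  rw [h.lev.lit]
  exact levG_lit T.σ0 T.σ1 hx

theorem th_of_level (h : PkOk q d) (T : Th q) {x : V n}
    (hx : d.l₀ q - 229 / 100 * q.R ≤ d.l x) : th1 q.σ ≤ HY.sq (ww n q x) := by
  refine th1_le_of_gg T.σ0 T.σ1 ?_
  have h1 : d.l x = d.l₀ q + q.R * gg n q.σ (q.R⁻¹ • x) := by
    rw [h.lev.lit]
    exact levG_eq x
  rw [h1] at hx
  by_contra hc
  have := mul_lt_mul_of_pos_left (not_le.1 hc) T.R0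
  linarith

theorem Gp_th (h : PkOk q d) (T : Th q) {x : V n} (hx : x ∈ Gp q d) :
    th1 q.σ ≤ HY.sq (ww n q x) := by
  refine th_of_level h T ?_
  have h1 := l0_le h T
  have h2 := hx.1
  have h3 := T.R0
  linarith

theorem Gp_lit (h : PkOk q d) (T : Th q) {x : V n} (hx : x ∈ Gp q d) :
    d.l x = d.l₀ q + q.R / (2 * q.σ) * (HY.sq (ww n q x) - 1) := lit_of_th h T (Gp_th h T hx)

/-- `|w|²` as a function of the level. -/
theorem sq_of_th (h : PkOk q d) (T : Th q) {x : V n} (hx : th1 q.σ ≤ HY.sq (ww n q x)) :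
    HY.sq (ww n q x) = 1 + 2 * q.σ / q.R * (d.l x - d.l₀ q) := by
  rw [lit_of_th h T hx]
  have := T.σ0
  have := T.R0
  field_simp
  ring

theorem Gp_sq (h : PkOk q d) (T : Th q) {x : V n} (hx : x ∈ Gp q d) :
    1 - 21 / 10 * q.σ ≤ HY.sq (ww n q x) ∧ HY.sq (ww n q x) ≤ 1 + 5 * q.σ := by
  have h0 := l0_nn h T
  have h1 := l0_le h T
  have hσ := T.σ0
  have hR := T.R0
  rw [sq_of_th h T (Gp_th h T hx)]
  have e : ∀ t : ℝ, 2 * q.σ / q.R * (t * q.R) = 2 * t * q.σ := fun t => by field_simp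
  have hc : 0 ≤ 2 * q.σ / q.R := by positivity
  constructor
  · have h2 := mul_le_mul_of_nonneg_left (show -(501 / 500) * q.R ≤ d.l x - d.l₀ q by
      linarith [hx.1]) hc
    rw [e] at h2
    linarith
  · have h2 := mul_le_mul_of_nonneg_left (show d.l x - d.l₀ q ≤ 5 / 2 * q.R by
      linarith [hx.2]) hc
    rw [e] at h2
    linarith

theorem isOpen_Gp (h : PkOk q d) : IsOpen (Gp q d) := by
  have hc := h.lev.sm.continuous
  exact (isOpen_lt continuous_const hc).inter (isOpen_lt hc continuous_const)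

theorem Gp_lv (hn : 1 ≤ n) (h : PkOk q d) (T : Th q) {x : V n} (hx : x ∈ Gp q d) :
    d.l x = lv n q.σ q.R d.kap d.Gs x := by
  rw [h.lev.lit]
  exact levG_eq_lv hn T.σ0 T.σ1 (Gp_th h T hx)

theorem Gp_P (h : PkOk q d) (T : Th q) {x : V n} (hx : x ∈ Gp q d) : d.P x = x := by
  refine h.ret.id x ?_
  have h3 := T.R0
  linarith [hx.2]

theorem Gp_Th (h : PkOk q d) (T : Th q) {x : V n} (hx : x ∈ Gp q d) : d.Θ (d.l x) = 0 := by
  refine h.Θ0 _ ?_
  have h3 := T.R0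
  linarith [hx.2]

/-! ## Derivatives -/

theorem l_pd (h : PkOk q d) (T : Th q) {x : V n} (hx : th1 q.σ ≤ HY.sq (ww n q x)) (i : Fin n) :
    LR.pd i d.l x = ww n q x i := by
  rw [h.lev.lit, pd_levG T.σ0 T.σ1 T.R0]
  have : pp q.σ (HY.sq (wR n q.σ q.R x)) = 1 := pp_one T.σ0 T.σ1 hx
  rw [this, one_mul]
  rfl

theorem l_sm (h : PkOk q d) : ContDiff ℝ ∞ d.l := h.lev.sm

/-- The derivative of the level is `w`. -/
theorem l_fd (h : PkOk q d) (T : Th q) {x : V n} (hx : th1 q.σ ≤ HY.sq (ww n q x)) (v : V n) :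
    fderiv ℝ d.l x v = ∑ i, ww n q x i * v i := by
  have e : v = ∑ i, v i • (Pi.single i 1 : V n) := by
    ext j
    simp [Finset.sum_apply, Pi.single_apply]
  conv_lhs => rw [e]
  rw [map_sum]
  refine Finset.sum_congr rfl fun i _ => ?_
  rw [map_smul, smul_eq_mul, mul_comm]
  congr 1
  exact l_pd h T hx i

theorem Gp_pd (h : PkOk q d) (T : Th q) {x : V n} (hx : x ∈ Gp q d) (i : Fin n) :
    LR.pd i d.l x = ww n q x i := l_pd h T (Gp_th h T hx) i

theorem Gp_pd2 (h : PkOk q d) (T : Th q) {x : V n} (hx : x ∈ Gp q d) (i j : Fin n) :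
    LR.pd j (LR.pd i d.l) x = if i = j then q.σ / q.R else 0 := by
  have h1 : LR.pd i d.l =ᶠ[𝓝 x] fun y => ww n q y i := by
    filter_upwards [(isOpen_Gp h).mem_nhds hx] with y hy
    exact Gp_pd h T hy i
  unfold LR.pd at h1 ⊢
  rw [h1.fderiv_eq]
  have h2 : HasFDerivAt (fun y : V n => ww n q y i)
      ((q.σ * q.R⁻¹) • ContinuousLinearMap.proj (R := ℝ) i) x := by
    have h3 : HasFDerivAt (fun y : V n => y i)
        (ContinuousLinearMap.proj (R := ℝ) (φ := fun _ : Fin n => ℝ) i) x :=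
      (ContinuousLinearMap.proj (R := ℝ) (φ := fun _ : Fin n => ℝ) i).hasFDerivAt
    have h4 := (((h3.const_mul q.R⁻¹).sub_const (e0 n i)).const_mul q.σ).const_add (e0 n i)
    refine h4.congr_fderiv ?_
    rw [smul_smul]
  rw [h2.fderiv]
  simp only [ContinuousLinearMap.smul_apply, ContinuousLinearMap.proj_apply, smul_eq_mul,
    Pi.single_apply]
  split_ifs
  · rw [mul_one, div_eq_mul_inv]
  · rw [mul_zero]

/-! ## Comparison of levels -/

/-- The difference of two levels. -/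
theorem l_sub (h : PkOk q d) (T : Th q) {x y : V n} (hx : th1 q.σ ≤ HY.sq (ww n q x))
    (hy : th1 q.σ ≤ HY.sq (ww n q y)) :
    d.l x - d.l y = 1 / 2 * ∑ i, (ww n q x i + ww n q y i) * (x i - y i) := by
  rw [lit_of_th h T hx, lit_of_th h T hy]
  have hσ := T.σ0
  have hR := T.R0
  have h1 : ∀ i, ww n q x i - ww n q y i = q.σ / q.R * (x i - y i) := fun i => by
    have := congrFun (ww_sub (q := q) x y) i
    simpa using this
  have h2 : HY.sq (ww n q x) - HY.sq (ww n q y) =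
      q.σ / q.R * ∑ i, (ww n q x i + ww n q y i) * (x i - y i) := by
    unfold HY.sq
    rw [← Finset.sum_sub_distrib, Finset.mul_sum]
    refine Finset.sum_congr rfl fun i _ => ?_
    have := h1 i
    calc ww n q x i ^ 2 - ww n q y i ^ 2 =
        (ww n q x i + ww n q y i) * (ww n q x i - ww n q y i) := by ring
      _ = _ := by rw [this]; ring
  calc _ = q.R / (2 * q.σ) * (HY.sq (ww n q x) - HY.sq (ww n q y)) := by ring
    _ = _ := by
        rw [h2]
        field_simp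

/-- The level at the midpoint. -/
theorem l_mid (h : PkOk q d) (T : Th q) {x y : V n} (hx : th1 q.σ ≤ HY.sq (ww n q x))
    (hy : th1 q.σ ≤ HY.sq (ww n q y))
    (hp : th1 q.σ ≤ HY.sq (ww n q ((1 / 2 : ℝ) • (x + y)))) :
    d.l x + d.l y = 2 * d.l ((1 / 2 : ℝ) • (x + y)) + q.σ / (4 * q.R) * HY.sq (x - y) := by
  rw [lit_of_th h T hx, lit_of_th h T hy, lit_of_th h T hp]
  have hσ := T.σ0
  have hR := T.R0
  have h1 : ∀ i, ww n q x i - ww n q y i = q.σ / q.R * (x i - y i) := fun i => by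
    have := congrFun (ww_sub (q := q) x y) i
    simpa using this
  have h3 : ∀ i, ww n q ((1 / 2 : ℝ) • (x + y)) i = (ww n q x i + ww n q y i) / 2 := fun i => by
    simp only [ww_apply, Pi.smul_apply, Pi.add_apply, smul_eq_mul]
    ring
  have h2 : HY.sq (ww n q x) + HY.sq (ww n q y) = 2 * HY.sq (ww n q ((1 / 2 : ℝ) • (x + y))) +
      1 / 2 * (q.σ / q.R) ^ 2 * HY.sq (x - y) := by
    unfold HY.sq
    rw [← Finset.sum_add_distrib, Finset.mul_sum, Finset.mul_sum, ← Finset.sum_add_distrib]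
    refine Finset.sum_congr rfl fun i _ => ?_
    rw [h3 i, Pi.sub_apply]
    have := h1 i
    calc ww n q x i ^ 2 + ww n q y i ^ 2 = 2 * ((ww n q x i + ww n q y i) / 2) ^ 2 +
          1 / 2 * (ww n q x i - ww n q y i) ^ 2 := by ring
      _ = _ := by rw [this]; ring
  have h4 : d.l₀ q + q.R / (2 * q.σ) * (HY.sq (ww n q x) - 1) +
      (d.l₀ q + q.R / (2 * q.σ) * (HY.sq (ww n q y) - 1)) = 2 * d.l₀ q +
      q.R / (2 * q.σ) * (HY.sq (ww n q x) + HY.sq (ww n q y) - 2) := by ring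
  rw [h4, h2]
  field_simp
  ring

/-- Two points at distance at most `R`: the second one is still in the explicit region. -/
theorem near_th (h : PkOk q d) (T : Th q) {x y : V n} (hx : x ∈ Gp q d)
    (hxy : √(HY.sq (y - x)) ≤ q.R / 2) : th1 q.σ ≤ HY.sq (ww n q y) := by
  have h1 := (Gp_sq h T hx).1
  have h2 := en_wR_le T.σ0 T.R0 x y (n := n) (R := q.R)
  have hσ := T.σ0
  have hσ1 := T.σ1
  have hR := T.R0
  have h3 : √(HY.sq (x - y)) = √(HY.sq (y - x)) := by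
    rw [show x - y = (-1 : ℝ) • (y - x) by simp, en_smul]
    simp
  rw [h3] at h2
  have h4 : q.σ / q.R * √(HY.sq (y - x)) ≤ q.σ / 2 := by
    calc q.σ / q.R * √(HY.sq (y - x)) ≤ q.σ / q.R * (q.R / 2) := by gcongr
      _ = q.σ / 2 := by field_simp
  have h5 : 1 - 11 / 10 * q.σ ≤ √(HY.sq (wR n q.σ q.R x)) := by
    refine Real.le_sqrt_of_sq_le ?_
    have : HY.sq (wR n q.σ q.R x) = HY.sq (ww n q x) := rfl
    rw [this]
    nlinarith
  have h6 : 1 - 16 / 10 * q.σ ≤ √(HY.sq (wR n q.σ q.R y)) := by linarith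
  have h7 : (1 - 16 / 10 * q.σ) ^ 2 ≤ HY.sq (wR n q.σ q.R y) := by
    have h8 : √(HY.sq (wR n q.σ q.R y)) ^ 2 = HY.sq (wR n q.σ q.R y) := Real.sq_sqrt (sq0 _)
    rw [← h8]
    exact pow_le_pow_left₀ (by linarith) h6 2
  refine le_trans ?_ h7
  unfold th1
  exact pow_le_pow_left₀ (by linarith) (by linarith) 2

theorem en_le_of_sq {v : V n} {a : ℝ} (ha : 0 ≤ a) (hv : HY.sq v ≤ a ^ 2) : √(HY.sq v) ≤ a := by
  calc √(HY.sq v) ≤ √(a ^ 2) := Real.sqrt_le_sqrt hv
    _ = a := Real.sqrt_sq ha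

theorem abs_dot_le (v w : V n) : |∑ i, v i * w i| ≤ √(HY.sq v) * √(HY.sq w) := by
  have h1 : (∑ i, v i * w i) ^ 2 ≤ HY.sq v * HY.sq w := Finset.sum_mul_sq_le_sq_mul_sq _ _ _
  rw [← Real.sqrt_mul (sq0 _), ← Real.sqrt_sq_eq_abs]
  exact Real.sqrt_le_sqrt h1

/-- The level is `1.01`-Lipschitz near the explicit region. -/
theorem l_lip (h : PkOk q d) (T : Th q) {x y : V n} (hx : x ∈ Gp q d)
    (hxy : √(HY.sq (y - x)) ≤ q.R / 2) :
    |d.l y - d.l x| ≤ 101 / 100 * √(HY.sq (y - x)) := by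
  have hσ := T.σ0
  have hσ1 := T.σ1
  have hR := T.R0
  have hy := near_th h T hx hxy
  rw [l_sub h T hy (Gp_th h T hx), abs_mul, abs_of_pos (by norm_num : (0 : ℝ) < 1 / 2)]
  have h1 := abs_dot_le (fun i => ww n q y i + ww n q x i) (fun i => y i - x i)
  have h2 : (fun i => ww n q y i + ww n q x i) = ww n q y + ww n q x := rfl
  have h3 : (fun i => y i - x i) = y - x := rfl
  rw [h2, h3] at h1
  have h4 : √(HY.sq (ww n q x)) ≤ 1 + 5 / 2 * q.σ :=
    en_le_of_sq (by linarith) ((Gp_sq h T hx).2.trans (by nlinarith))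
  have h5 : √(HY.sq (ww n q y)) ≤ 1 + 3 * q.σ := by
    have h6 := en_wR_le T.σ0 T.R0 y x (n := n) (R := q.R)
    have h7 : q.σ / q.R * √(HY.sq (y - x)) ≤ q.σ / 2 := by
      calc q.σ / q.R * √(HY.sq (y - x)) ≤ q.σ / q.R * (q.R / 2) := by gcongr
        _ = q.σ / 2 := by field_simp
    have h8 : √(HY.sq (wR n q.σ q.R y)) = √(HY.sq (ww n q y)) := rfl
    have h9 : √(HY.sq (wR n q.σ q.R x)) = √(HY.sq (ww n q x)) := rfl
    rw [h8, h9] at h6
    linarith
  have h6 := en_add (ww n q y) (ww n q x)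
  have h7 : √(HY.sq (ww n q y + ww n q x)) ≤ 202 / 100 := by linarith
  have h8 : √(HY.sq (ww n q y + ww n q x)) * √(HY.sq (y - x)) ≤
      202 / 100 * √(HY.sq (y - x)) := mul_le_mul_of_nonneg_right h7 (Real.sqrt_nonneg _)
  linarith

/-- A point with `|x| > 2 R` from its level. -/
theorem far_of_level (hn : 1 ≤ n) (h : PkOk q d) (T : Th q) {x : V n}
    (hx : d.l₀ q + 21 / 20 * q.R ≤ d.l x) : 2 * q.R < √(HY.sq x) := by
  rw [h.lev.lit] at hx
  exact en_gt_of_levG hn T.σ0 T.σ1 T.R0 hx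

end Vale.Agent.P088.R2.H238.C
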